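import Vale.Agent.P154.DE.R4.Run0
import Vale.Agent.P154.DE.R4.Run1
import Vale.Agent.P154.DE.R4.Run2
import Vale.Agent.P154.DE.R4.Run3
import Vale.Agent.P154.DE.R4.Run4
import Vale.Agent.P154.DE.R4.Run5
import Vale.Agent.P154.DE.R4.Run6
import Vale.Agent.P154.DE.R4.Run7

/-!
Certified recursion for 4 children and eigenvalues in [-1/2, 0].

Generated by notes/P154_DE/helper7/regcert.py.
-/

set_option maxRecDepth 10000

namespace Vale.Agent.P154.Q3.DE.R4

noncomputable def baseCheck : Bool :=
  Nat.beq start0.length par.K && Nat.ble par.S (2 * par.G * start0.getD 0 0)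

theorem baseCheck_ok : baseCheck = true := by decide +kernel

theorem level0 : DomP (lik (-(par.p : ℝ) / par.q) 0 (regTree 4 0))
    (gch (gridList par.K par.P) start0 par.S) :=
  run_start valid 4 (Bool.and_eq_true _ _ ▸ baseCheck_ok).1 (Bool.and_eq_true _ _ ▸ baseCheck_ok).2

theorem level1 : DomP (lik (-(par.p : ℝ) / par.q) 25 (regTree 4 25))
    (gch (gridList par.K par.P) start1 par.S) :=
  run_sound valid levels0 start0 0 check0_ok level0

theorem level2 : DomP (lik (-(par.p : ℝ) / par.q) 50 (regTree 4 50))
    (gch (gridList par.K par.P) start2 par.S) :=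
  run_sound valid levels1 start1 25 check1_ok level1

theorem level3 : DomP (lik (-(par.p : ℝ) / par.q) 75 (regTree 4 75))
    (gch (gridList par.K par.P) start3 par.S) :=
  run_sound valid levels2 start2 50 check2_ok level2

theorem level4 : DomP (lik (-(par.p : ℝ) / par.q) 100 (regTree 4 100))
    (gch (gridList par.K par.P) start4 par.S) :=
  run_sound valid levels3 start3 75 check3_ok level3

theorem level5 : DomP (lik (-(par.p : ℝ) / par.q) 125 (regTree 4 125))
    (gch (gridList par.K par.P) start5 par.S) :=
  run_sound valid levels4 start4 100 check4_ok level4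

theorem level6 : DomP (lik (-(par.p : ℝ) / par.q) 150 (regTree 4 150))
    (gch (gridList par.K par.P) start6 par.S) :=
  run_sound valid levels5 start5 125 check5_ok level5

theorem level7 : DomP (lik (-(par.p : ℝ) / par.q) 175 (regTree 4 175))
    (gch (gridList par.K par.P) start7 par.S) :=
  run_sound valid levels6 start6 150 check6_ok level6

theorem level8 : DomP (lik (-(par.p : ℝ) / par.q) 200 (regTree 4 200))
    (gch (gridList par.K par.P) (runEnd levels7 start7) par.S) :=
  run_sound valid levels7 start7 175 check7_ok level7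

noncomputable def finalCheck : Bool :=
  Nat.ble (dot (runEnd levels7 start7) (mapK nsqN (gridList par.K par.P))) 104577452796 &&
    Nat.ble (dot (runEnd levels7 start7) (mapK (fun v => nsqN v * nsqN v) (gridList par.K par.P))) 16700346143154

theorem finalCheck_ok : finalCheck = true := by decide +kernel

/-- `mu = 1/2`, `P0 = 650/1000`, `A0 = 692/1000`, `N0 = 200`. -/
theorem bounds {lam : ℝ} (h0 : -((1 : ℝ) / 2) ≤ lam) (h1 : lam ≤ 0) :
    fval (rf fun r => ∑ i, r i ^ 2) (lik lam 200 (regTree 4 200)) ≤ (650 : ℝ) / 1000 ∧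
      2 * fval (rf fun r => ∑ i, r i ^ 4) (lik lam 200 (regTree 4 200)) ≤ (692 : ℝ) / 1000 := by
  have hf := finalCheck_ok
  rw [finalCheck, Bool.and_eq_true] at hf
  have := run_bounds valid (show 0 < 1 by norm_num) level8 hf.1 hf.2
    (lam := lam) (by simpa [par, neg_div] using h0) h1
  refine ⟨this.1.trans ?_, this.2.trans ?_⟩ <;> norm_num [par]

/-- The interval reaches the Kesten-Stigum bound. -/
theorem reach : (1 : ℝ) ≤ 4 * ((1 : ℝ) / 2) ^ 2 := by norm_num

end Vale.Agent.P154.Q3.DE.R4
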